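/-
helper79 — S0466 (row 326, Track D round 2), leaf CS of helper62's blueprint:
the tight odd sets of a point of Edmonds' polyhedron of the full graph form a `CutSystem`
(uncrossing of tight odd cuts).  Maths: notes/s0466/PROOF.md, paragraph "CS".
-/
import Crest.Agent.Helper62.S0466.Defs
import Crest.Agent.Helper62.S0466.Uncross

set_option autoImplicit false

namespace Crest.Agent.Helper79.S0466

open Crest.Agent.Helper62.S0466

variable {V E : Type} [DecidableEq V] [DecidableEq E]

private theorem mem_cut_univ [Fintype E] (ends : E → V × V) (U : Finset V) (e : E) :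
    e ∈ cut ends Finset.univ U ↔
      ((ends e).1 ∈ U ∧ (ends e).2 ∉ U) ∨ ((ends e).1 ∉ U ∧ (ends e).2 ∈ U) := by
  simp [cut]

private theorem cut_compl [Fintype V] [Fintype E] (ends : E → V × V) (U : Finset V) :
    cut ends Finset.univ Uᶜ = cut ends Finset.univ U := by
  ext e
  simp only [mem_cut_univ, Finset.mem_compl]
  tauto

private theorem mem_star_univ [Fintype E] (ends : E → V × V) (v : V) (e : E) :
    e ∈ Crest.Agent.Helper62.S0466.star ends Finset.univ v ↔
      (ends e).1 = v ∨ (ends e).2 = v := by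
  simp [Crest.Agent.Helper62.S0466.star]

private theorem cut_single [Fintype V] [Fintype E] {ends : E → V × V}
    (hWF : WF ends Finset.univ Finset.univ) (v : V) :
    cut ends Finset.univ {v} = Crest.Agent.Helper62.S0466.star ends Finset.univ v := by
  ext e
  have hne := (hWF e (Finset.mem_univ e)).2.2
  rw [mem_cut_univ, mem_star_univ]
  simp only [Finset.mem_singleton]
  constructor
  · rintro (⟨h1, -⟩ | ⟨-, h2⟩)
    · exact Or.inl h1
    · exact Or.inr h2
  · rintro (h1 | h2)
    · exact Or.inl ⟨h1, fun h2 => hne (h1.trans h2.symm)⟩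
    · exact Or.inr ⟨fun h1 => hne (h1.trans h2.symm), h2⟩

omit [DecidableEq E] in
private theorem sum_cut_eq [Fintype E] (ends : E → V × V) (x : E → ℝ) (U : Finset V) :
    ∑ e ∈ cut ends Finset.univ U, x e =
      ∑ e, (if ((ends e).1 ∈ U ∧ (ends e).2 ∉ U) ∨ ((ends e).1 ∉ U ∧ (ends e).2 ∈ U)
        then x e else 0) := by
  rw [cut, Finset.sum_filter]

private theorem key (p q r s : Prop) [Decidable p] [Decidable q] [Decidable r] [Decidable s]
    (t : ℝ) :
    (if (p ∧ ¬q) ∨ (¬p ∧ q) then t else 0) + (if (r ∧ ¬s) ∨ (¬r ∧ s) then t else 0) =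
      (if ((p ∧ r) ∧ ¬(q ∧ s)) ∨ (¬(p ∧ r) ∧ (q ∧ s)) then t else 0) +
      (if ((p ∨ r) ∧ ¬(q ∨ s)) ∨ (¬(p ∨ r) ∧ (q ∨ s)) then t else 0) +
      2 * (if (p ∧ ¬r ∧ s ∧ ¬q) ∨ (q ∧ ¬s ∧ r ∧ ¬p) then t else 0) := by
  by_cases hp : p <;> by_cases hq : q <;> by_cases hr : r <;> by_cases hs : s <;>
    simp [hp, hq, hr, hs] <;> ring

/-- The pointwise uncrossing identity, summed against `x`. -/
private theorem uncross_sum [Fintype E] (ends : E → V × V) (x : E → ℝ) (S T : Finset V) :
    ∑ e ∈ cut ends Finset.univ S, x e + ∑ e ∈ cut ends Finset.univ T, x e =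
      ∑ e ∈ cut ends Finset.univ (S ∩ T), x e + ∑ e ∈ cut ends Finset.univ (S ∪ T), x e +
      2 * ∑ e, (if ((ends e).1 ∈ S ∧ (ends e).1 ∉ T ∧ (ends e).2 ∈ T ∧ (ends e).2 ∉ S) ∨
          ((ends e).2 ∈ S ∧ (ends e).2 ∉ T ∧ (ends e).1 ∈ T ∧ (ends e).1 ∉ S)
        then x e else 0) := by
  simp only [sum_cut_eq, Finset.mul_sum, ← Finset.sum_add_distrib]
  refine Finset.sum_congr rfl fun e _ => ?_
  simp only [Finset.mem_inter, Finset.mem_union]
  exact key _ _ _ _ _

/-- The tight odd sets of a point of `QQ` of the full graph form a cut system, with cut vectors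
the indicators of the positive part of the cut. -/
theorem exists_tightSystem [Fintype V] [Fintype E] {ends : E → V × V}
    (hWF : WF ends Finset.univ Finset.univ) {x : E → ℝ}
    (hx : x ∈ QQ ends Finset.univ Finset.univ) :
    ∃ C : CutSystem V (E → ℝ),
      C.T = {U : Finset V | Odd U.card ∧ ∑ e ∈ cut ends Finset.univ U, x e = 1} ∧
      C.c = fun U e => if e ∈ cut ends Finset.univ U ∧ 0 < x e then 1 else 0 := by
  obtain ⟨-, hxnn, hxstar, hxcut⟩ := hx
  have hcut : ∀ U : Finset V, Odd U.card → 1 ≤ ∑ e ∈ cut ends Finset.univ U, x e :=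
    fun U hU => hxcut U (Finset.subset_univ U) hU
  -- the number of vertices is even
  have hev : Even (Fintype.card V) := by
    by_contra hne
    have hodd : Odd (Finset.univ : Finset V).card := by
      rw [Finset.card_univ]; exact Nat.not_even_iff_odd.1 hne
    have h1 := hcut Finset.univ hodd
    have h2 : cut ends Finset.univ (Finset.univ : Finset V) = ∅ := by
      ext e; simp [mem_cut_univ]
    rw [h2, Finset.sum_empty] at h1
    linarith
  -- uncrossing
  have hunc : ∀ S T : Finset V, Odd S.card → ∑ e ∈ cut ends Finset.univ S, x e = 1 →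
      Odd T.card → ∑ e ∈ cut ends Finset.univ T, x e = 1 → Odd (S ∩ T).card →
      Odd (S ∪ T).card ∧ ∑ e ∈ cut ends Finset.univ (S ∩ T), x e = 1 ∧
        ∑ e ∈ cut ends Finset.univ (S ∪ T), x e = 1 ∧
        ∀ e, 0 < x e →
          ¬ (((ends e).1 ∈ S ∧ (ends e).1 ∉ T ∧ (ends e).2 ∈ T ∧ (ends e).2 ∉ S) ∨
            ((ends e).2 ∈ S ∧ (ends e).2 ∉ T ∧ (ends e).1 ∈ T ∧ (ends e).1 ∉ S)) := by
    intro S T hS hS1 hT hT1 hI
    have hU : Odd (S ∪ T).card := by
      have := Finset.card_union_add_card_inter S T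
      rw [Nat.odd_iff] at hS hT hI ⊢
      omega
    have h1 := hcut _ hI
    have h2 := hcut _ hU
    have hkey := uncross_sum ends x S T
    rw [hS1, hT1] at hkey
    have hJnn : ∀ e ∈ (Finset.univ : Finset E), 0 ≤
        (if ((ends e).1 ∈ S ∧ (ends e).1 ∉ T ∧ (ends e).2 ∈ T ∧ (ends e).2 ∉ S) ∨
          ((ends e).2 ∈ S ∧ (ends e).2 ∉ T ∧ (ends e).1 ∈ T ∧ (ends e).1 ∉ S)
        then x e else 0) := by
      intro e _
      split_ifs
      · exact hxnn e
      · exact le_rfl
    have hJ := Finset.sum_nonneg hJnn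
    have hJ0 : ∑ e, (if ((ends e).1 ∈ S ∧ (ends e).1 ∉ T ∧ (ends e).2 ∈ T ∧ (ends e).2 ∉ S) ∨
          ((ends e).2 ∈ S ∧ (ends e).2 ∉ T ∧ (ends e).1 ∈ T ∧ (ends e).1 ∉ S)
        then x e else 0) = 0 := by linarith
    refine ⟨hU, by linarith, by linarith, ?_⟩
    intro e hpos hJe
    have := (Finset.sum_eq_zero_iff_of_nonneg hJnn).1 hJ0 e (Finset.mem_univ e)
    rw [if_pos hJe] at this
    linarith
  refine ⟨{ T := {U : Finset V | Odd U.card ∧ ∑ e ∈ cut ends Finset.univ U, x e = 1}
            c := fun U e => if e ∈ cut ends Finset.univ U ∧ 0 < x e then 1 else 0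
            odd := fun U hU => hU.1
            single := ?_
            ne_zero := ?_
            compl_mem := ?_
            c_compl := ?_
            inter_mem := ?_
            union_mem := ?_
            uncross := ?_ }, rfl, rfl⟩
  · -- singletons
    intro v
    refine ⟨by simp, ?_⟩
    rw [cut_single hWF v]
    exact hxstar v (Finset.mem_univ v)
  · -- cut vectors are nonzero
    rintro U ⟨-, hU1⟩ h0
    have hex : ∃ e ∈ cut ends Finset.univ U, 0 < x e := by
      by_contra hno
      push Not at hno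
      have : ∑ e ∈ cut ends Finset.univ U, x e = 0 :=
        Finset.sum_eq_zero fun e he => le_antisymm (hno e he) (hxnn e)
      linarith
    obtain ⟨e, he, hpos⟩ := hex
    have := congrFun h0 e
    simp [he, hpos] at this
  · -- complements
    rintro U ⟨hUodd, hU1⟩
    refine ⟨?_, by rw [cut_compl]; exact hU1⟩
    have hle : U.card ≤ Fintype.card V := Finset.card_le_univ U
    rw [Finset.card_compl]
    rw [Nat.odd_iff] at hUodd ⊢
    rw [Nat.even_iff] at hev
    omega
  · rintro U -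
    funext e
    rw [cut_compl]
  · rintro S ⟨hS, hS1⟩ T ⟨hT, hT1⟩ hI
    exact ⟨hI, (hunc S T hS hS1 hT hT1 hI).2.1⟩
  · rintro S ⟨hS, hS1⟩ T ⟨hT, hT1⟩ hI
    exact ⟨(hunc S T hS hS1 hT hT1 hI).1, (hunc S T hS hS1 hT hT1 hI).2.2.1⟩
  · rintro S ⟨hS, hS1⟩ T ⟨hT, hT1⟩ hI
    funext e
    simp only [Pi.add_apply]
    by_cases hpos : 0 < x e
    · have hnJ := (hunc S T hS hS1 hT hT1 hI).2.2.2 e hpos
      have hk := key ((ends e).1 ∈ S) ((ends e).2 ∈ S) ((ends e).1 ∈ T) ((ends e).2 ∈ T) (1 : ℝ)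
      rw [if_neg hnJ, mul_zero, add_zero] at hk
      simp only [mem_cut_univ, hpos, and_true, Finset.mem_inter, Finset.mem_union]
      exact hk
    · simp [hpos]

end Crest.Agent.Helper79.S0466
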